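import Mathlib
import Vale.Agent.Lib.P052.helper23.Borsuk

namespace Vale.Agent.Results.P052.A_FewPoints

/-- Borsuk's conjecture holds, in every dimension `d`, for every set of at most `d + 4` points:
a finite set `X` of Euclidean `d`-space with at least two and at most `d + 4` points is the
union of at most `d + 1` subsets, each of diameter strictly smaller than the diameter of `X`.

The proof rests on a rigidity fact (two regular simplices glued along a common facet): if `d`
points of `ℝ^d` are pairwise at distance `D` and two further distinct points are at distance
`D` from all of them, then these two points are at distance `D * sqrt (2 (d + 1) / d) > D`.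
Hence the graph of diameters of `X` contains no complete graph on `d + 2` vertices with one
edge removed, and a case analysis on the graph of non-diameters gives the covering. -/
theorem result (d : ℕ) (X : Finset (EuclideanSpace ℝ (Fin d)))
    (h2 : 2 ≤ X.card) (hcard : X.card ≤ d + 4) :
    ∃ P : Finset (Finset (EuclideanSpace ℝ (Fin d))), P.card ≤ d + 1 ∧ (∀ A ∈ P, A ⊆ X) ∧
      (∀ x ∈ X, ∃ A ∈ P, x ∈ A) ∧
      ∀ A ∈ P, Metric.diam (A : Set (EuclideanSpace ℝ (Fin d)))
        < Metric.diam (X : Set (EuclideanSpace ℝ (Fin d))) :=
  Vale.Agent.Lib.P052.helper23.borsuk_few_points d X h2 hcard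

end Vale.Agent.Results.P052.A_FewPoints
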